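import Vale.Agent.P167.N.Kit
import Vale.Agent.P167.H635.Lim

/-!
# P167, `q < 1`: the infinite-volume measure
-/

namespace Vale.Agent.P167.N.H519

open MeasureTheory Vale.Agent.P167.FK Vale.Agent.P167.FKA
open Vale.Agent.P167.H519 (IsLim Cau)

variable {Q : ℝ}

/-- every local function has the Cauchy property -/
theorem cau_loc (K : Kit Q) {α C : ℝ} (hα : 0 < α) (hA : ArmDec Q α C) {B : Finset (ℤ × ℤ)}
    {F : Cfg → ℝ} (hF : Loc B F) : Cau Q F := H635.cau_loc K.pos K.le hα hA hF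

theorem exists_lim (K : Kit Q) {α C : ℝ} (hα : 0 < α) (hA : ArmDec Q α C) :
    ∃ P : Measure Cfg, IsLim Q P := H635.exists_lim K.pos K.le hα hA

end Vale.Agent.P167.N.H519
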